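import Mathlib

/-! Primitive recursive arithmetic on `ℚ` for Mathlib's `Primcodable ℚ` instance
(the one coming from `Denumerable ℚ`). -/

set_option autoImplicit false

namespace Crest.Agent.RatPrim

open Encodable Denumerable

/-- the "old" code of a rational number -/
def e0 (q : ℚ) : ℕ := @encode ℚ Rat.instEncodable q

lemma e0_eq (q : ℚ) : e0 q = Nat.pair (encode q.num) q.den := by
  cases q; rfl

lemma e0_inj : Function.Injective e0 := @encode_injective ℚ Rat.instEncodable

/-- code of an integer, from positive and negative parts -/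
lemma encode_int (z : ℤ) : encode z = if z < 0 then 2 * (z.natAbs - 1) + 1 else 2 * z.natAbs := by
  cases z with
  | ofNat n =>
    have : ¬ (Int.ofNat n < 0) := by simp
    rw [if_neg this]
    show Nat.bit false n = 2 * n
    simp [Nat.bit]
  | negSucc n =>
    have : Int.negSucc n < 0 := Int.negSucc_lt_zero n
    rw [if_pos this]
    show Equiv.intEquivNat (Int.negSucc n) = _
    simp [Equiv.intEquivNat, Equiv.intEquivNatSumNat, Equiv.natSumNatEquivNat]

lemma natAbs_of_encode (z : ℤ) : z.natAbs = (encode z + 1) / 2 := by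
  rw [encode_int]; split_ifs with h <;> omega

/-- membership in the range of `e0` -/
def InR (m : ℕ) : Prop := 0 < m.unpair.2 ∧ ((m.unpair.1 + 1) / 2).Coprime m.unpair.2

instance : DecidablePred InR := fun m => by unfold InR; infer_instance

lemma inR_iff (m : ℕ) : InR m ↔ m ∈ Set.range e0 := by
  constructor
  · rintro ⟨h1, h2⟩
    refine ⟨⟨ofNat ℤ m.unpair.1, m.unpair.2, h1.ne', ?_⟩, ?_⟩
    · rw [natAbs_of_encode, encode_ofNat]; exact h2
    · rw [e0_eq]
      show Nat.pair (encode (ofNat ℤ m.unpair.1)) m.unpair.2 = m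
      rw [encode_ofNat, Nat.pair_unpair]
  · rintro ⟨q, rfl⟩
    rw [e0_eq]
    refine ⟨by simpa using q.den_pos, ?_⟩
    simp only [Nat.unpair_pair]
    rw [← natAbs_of_encode]; exact q.reduced

/-- counting function -/
def cnt (m : ℕ) : ℕ := (List.range m).countP (fun y => decide (InR y))

lemma encode_rat (q : ℚ) : @encode ℚ (Primcodable.ofDenumerable ℚ).toEncodable q = cnt (e0 q) := by
  have : @encode ℚ (Primcodable.ofDenumerable ℚ).toEncodable q
      = (List.range (e0 q)).countP (fun y => @decide (y ∈ Set.range e0)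
        (@decidableRangeEncode ℚ Rat.instEncodable y)) := rfl
  rw [this, cnt]
  congr 1
  funext y
  simp [inR_iff]

lemma primrec_dvd : PrimrecRel (fun a b : ℕ => a ∣ b) := by
  have : PrimrecRel (fun a b : ℕ => b % a = 0) :=
    Primrec.eq.comp₂ (Primrec.nat_mod.comp₂ Primrec₂.right Primrec₂.left) (Primrec₂.const 0)
  exact this.of_eq fun a b => by simp [Nat.dvd_iff_mod_eq_zero]

lemma primrec_gcd : Primrec₂ Nat.gcd := by
  have h : Primrec fun p : ℕ × ℕ => Nat.findGreatest (fun d => d ∣ p.1 ∧ d ∣ p.2) (p.1 + p.2) := by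
    refine Primrec.nat_findGreatest (Primrec.nat_add.comp Primrec.fst Primrec.snd) ?_
    exact PrimrecPred.and (primrec_dvd.comp Primrec.snd (Primrec.fst.comp Primrec.fst))
      (primrec_dvd.comp Primrec.snd (Primrec.snd.comp Primrec.fst))
  refine Primrec₂.mk (h.of_eq fun p => ?_)
  obtain ⟨a, b⟩ := p
  simp only
  rcases Nat.eq_zero_or_pos (a + b) with h0 | h0
  · have ha : a = 0 := by omega
    have hb : b = 0 := by omega
    subst ha hb; simp
  · rw [Nat.findGreatest_eq_iff]
    refine ⟨?_, fun _ => ⟨Nat.gcd_dvd_left a b, Nat.gcd_dvd_right a b⟩, ?_⟩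
    · rcases Nat.eq_zero_or_pos a with ha | ha
      · subst ha; simp
      · exact (Nat.gcd_le_left b ha).trans (Nat.le_add_right _ _)
    · intro n hn _ hd
      have hpos : 0 < a.gcd b := Nat.gcd_pos_iff.2 (by omega)
      exact absurd (Nat.le_of_dvd hpos (Nat.dvd_gcd hd.1 hd.2)) (not_le.2 hn)

lemma primrec_InR : PrimrecPred InR := by
  have h1 : Primrec fun m : ℕ => m.unpair.1 := Primrec.fst.comp Primrec.unpair
  have h2 : Primrec fun m : ℕ => m.unpair.2 := Primrec.snd.comp Primrec.unpair
  refine PrimrecPred.and (Primrec.nat_lt.comp (Primrec.const 0) h2) ?_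
  exact Primrec.eq.comp (primrec_gcd.comp (Primrec.nat_div.comp (Primrec.succ.comp h1)
    (Primrec.const 2)) h2) (Primrec.const 1)

lemma cnt_succ (m : ℕ) : cnt (m + 1) = cnt m + if InR m then 1 else 0 := by
  simp [cnt, List.range_succ, List.countP_append, List.countP_cons]

lemma primrec_cnt : Primrec cnt := by
  have : Primrec (fun m : ℕ => Nat.rec (motive := fun _ => ℕ) 0
      (fun n ih => ih + if InR n then 1 else 0) m) := by
    refine Primrec.nat_rec₁ 0 ?_
    refine Primrec.nat_add.comp₂ Primrec₂.right ?_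
    exact Primrec.ite (primrec_InR.comp Primrec.fst) (Primrec.const 1) (Primrec.const 0)
  refine this.of_eq fun m => ?_
  induction m with
  | zero => simp [cnt]
  | succ m ih => rw [cnt_succ, ← ih]

lemma cnt_mono : Monotone cnt := monotone_nat_of_le_succ fun m => by rw [cnt_succ]; omega

lemma cnt_lt {a b : ℕ} (hab : a < b) (ha : InR a) : cnt a < cnt b := by
  have := cnt_mono (show a + 1 ≤ b from hab)
  rw [cnt_succ, if_pos ha] at this
  omega

lemma le_cnt_pair (k : ℕ) : k ≤ cnt (Nat.pair k 1) := by
  induction k with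
  | zero => exact Nat.zero_le _
  | succ k ih =>
    have h1 : InR (Nat.pair k 1) := by simp [InR]
    have h2 : Nat.pair k 1 < Nat.pair (k + 1) 1 := Nat.pair_lt_pair_left 1 (Nat.lt_succ_self k)
    have := cnt_lt h2 h1
    omega

lemma primrec_cnt_e0 : Primrec fun q => cnt (e0 q) :=
  (Primrec.encode (α := ℚ)).of_eq encode_rat

lemma primrec_e0 : Primrec e0 := by
  refine Primrec.of_graph ⟨fun q => Nat.pair (cnt (e0 q) + 1) 1, ?_, fun q => ?_⟩ ?_
  · exact Primrec₂.natPair.comp (Primrec.succ.comp primrec_cnt_e0) (Primrec.const 1)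
  · by_contra h
    have h' : Nat.pair (cnt (e0 q) + 1) 1 < e0 q := by simpa using h
    have := cnt_mono h'.le
    have := le_cnt_pair (cnt (e0 q) + 1)
    omega
  · have : PrimrecRel (fun (q : ℚ) (m : ℕ) => InR m ∧ cnt m = cnt (e0 q)) :=
      PrimrecPred.and (primrec_InR.comp Primrec.snd)
        (Primrec.eq.comp (primrec_cnt.comp Primrec.snd) (primrec_cnt_e0.comp Primrec.fst))
    refine this.of_eq fun q m => ?_
    have hq : InR (e0 q) := (inR_iff _).2 ⟨q, rfl⟩
    constructor
    · rintro ⟨h1, h2⟩
      rcases lt_trichotomy (e0 q) m with h | h | h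
      · have := cnt_lt h hq; omega
      · exact h
      · have := cnt_lt h h1; omega
    · rintro rfl; exact ⟨hq, rfl⟩

lemma primrec_den : Primrec Rat.den :=
  (Primrec.snd.comp (Primrec.unpair.comp primrec_e0)).of_eq fun q => by simp [e0_eq]

lemma primrec_encnum : Primrec fun q : ℚ => encode q.num :=
  (Primrec.fst.comp (Primrec.unpair.comp primrec_e0)).of_eq fun q => by simp [e0_eq]

/-- positive part of the numerator -/
def np (q : ℚ) : ℕ := q.num.toNat
/-- negative part of the numerator -/
def nn (q : ℚ) : ℕ := (-q.num).toNat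

lemma primrec_np : Primrec np := by
  have : Primrec fun q : ℚ => if encode q.num % 2 = 0 then encode q.num / 2 else 0 :=
    Primrec.ite (Primrec.eq.comp (Primrec.nat_mod.comp primrec_encnum (Primrec.const 2))
      (Primrec.const 0)) (Primrec.nat_div.comp primrec_encnum (Primrec.const 2)) (Primrec.const 0)
  refine this.of_eq fun q => ?_
  rw [encode_int, np]
  split_ifs <;> omega

lemma primrec_nn : Primrec nn := by
  have : Primrec fun q : ℚ => if encode q.num % 2 = 0 then 0 else (encode q.num + 1) / 2 :=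
    Primrec.ite (Primrec.eq.comp (Primrec.nat_mod.comp primrec_encnum (Primrec.const 2))
      (Primrec.const 0)) (Primrec.const 0)
      (Primrec.nat_div.comp (Primrec.succ.comp primrec_encnum) (Primrec.const 2))
  refine this.of_eq fun q => ?_
  rw [encode_int, nn]
  split_ifs <;> omega

lemma np_sub_nn (q : ℚ) : (np q : ℤ) - nn q = q.num := by unfold np nn; omega

/-- the rational `(a - b) / d` -/
def mk (a b d : ℕ) : ℚ := ((a : ℚ) - b) / d

lemma mk_self (q : ℚ) : mk (np q) (nn q) q.den = q := by
  have h : ((np q : ℚ) - nn q) = q.num := by exact_mod_cast np_sub_nn q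
  rw [mk, h, Rat.num_div_den]

lemma e0_mk (a b d : ℕ) : e0 (mk a b d) = if d = 0 then Nat.pair 0 1 else
    Nat.pair (if a < b then 2 * ((b - a) / Nat.gcd ((a - b) + (b - a)) d - 1) + 1
      else 2 * ((a - b) / Nat.gcd ((a - b) + (b - a)) d)) (d / Nat.gcd ((a - b) + (b - a)) d) := by
  split_ifs with hd hab
  · subst hd; simp [mk, e0_eq]; rfl
  all_goals
    have h1 : mk a b d = mkRat ((a : ℤ) - b) d := by
      rw [Rat.mkRat_eq_div, mk]; push_cast; rfl
    have h2 : ((a : ℤ) - b).natAbs = (a - b) + (b - a) := by omega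
    rw [e0_eq, h1, Rat.num_mkRat, Rat.den_mkRat, if_neg hd, if_neg hd, h2, Nat.gcd_comm d,
      encode_int]
    have hg : 0 < Nat.gcd ((a - b) + (b - a)) d := Nat.gcd_pos_of_pos_right _ (Nat.pos_of_ne_zero hd)
    have hdvd : Nat.gcd ((a - b) + (b - a)) d ∣ (a - b) + (b - a) := Nat.gcd_dvd_left _ _
    generalize Nat.gcd ((a - b) + (b - a)) d = g at hg hdvd ⊢
  · obtain ⟨c, hc⟩ := hdvd
    have h3 : b - a = g * c := by omega
    have h4 : (a : ℤ) - b = g * (-c) := by
      have : (b : ℤ) - a = g * c := by rw [← Nat.cast_sub hab.le, h3]; push_cast; ring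
      linarith
    have hc0 : 0 < c := by
      rcases Nat.eq_zero_or_pos c with h | h
      · subst h; omega
      · exact h
    rw [h4, h3, Int.mul_ediv_cancel_left _ (by exact_mod_cast hg.ne'), Nat.mul_div_cancel_left _ hg,
      if_pos (by omega)]
    simp
  · obtain ⟨c, hc⟩ := hdvd
    have h3 : a - b = g * c := by omega
    have h4 : (a : ℤ) - b = g * c := by
      rw [← Nat.cast_sub (not_lt.1 hab), h3]; push_cast; ring
    rw [h4, h3, Int.mul_ediv_cancel_left _ (by exact_mod_cast hg.ne'), Nat.mul_div_cancel_left _ hg,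
      if_neg (by omega)]
    simp

lemma primrec_mk {α : Type*} [Primcodable α] {a b d : α → ℕ} (ha : Primrec a) (hb : Primrec b)
    (hd : Primrec d) : Primrec fun x => mk (a x) (b x) (d x) := by
  rw [← Primrec.encode_iff]
  have hg : Primrec fun x => Nat.gcd ((a x - b x) + (b x - a x)) (d x) :=
    primrec_gcd.comp (Primrec.nat_add.comp (Primrec.nat_sub.comp ha hb)
      (Primrec.nat_sub.comp hb ha)) hd
  have : Primrec fun x => e0 (mk (a x) (b x) (d x)) := by
    simp only [e0_mk]
    refine Primrec.ite (Primrec.eq.comp hd (Primrec.const 0)) (Primrec.const _) ?_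
    refine Primrec₂.natPair.comp (Primrec.ite (Primrec.nat_lt.comp ha hb) ?_ ?_)
      (Primrec.nat_div.comp hd hg)
    · exact Primrec.nat_double_succ.comp (Primrec.nat_sub.comp
        (Primrec.nat_div.comp (Primrec.nat_sub.comp hb ha) hg) (Primrec.const 1))
    · exact Primrec.nat_double.comp (Primrec.nat_div.comp (Primrec.nat_sub.comp ha hb) hg)
  exact (primrec_cnt.comp this).of_eq fun x => (encode_rat _).symm

section ops

variable {α : Type*} [Primcodable α]

lemma natCast {f : α → ℕ} (hf : Primrec f) : Primrec fun x => (f x : ℚ) :=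
  (primrec_mk hf (Primrec.const 0) (Primrec.const 1)).of_eq fun x => by simp [mk]

lemma add {f g : α → ℚ} (hf : Primrec f) (hg : Primrec g) : Primrec fun x => f x + g x := by
  have := primrec_mk
    (Primrec.nat_add.comp (Primrec.nat_mul.comp (primrec_np.comp hf) (primrec_den.comp hg))
      (Primrec.nat_mul.comp (primrec_np.comp hg) (primrec_den.comp hf)))
    (Primrec.nat_add.comp (Primrec.nat_mul.comp (primrec_nn.comp hf) (primrec_den.comp hg))
      (Primrec.nat_mul.comp (primrec_nn.comp hg) (primrec_den.comp hf)))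
    (Primrec.nat_mul.comp (primrec_den.comp hf) (primrec_den.comp hg))
  refine this.of_eq fun x => ?_
  conv_rhs => rw [← mk_self (f x), ← mk_self (g x)]
  have h1 : ((f x).den : ℚ) ≠ 0 := by exact_mod_cast (f x).den_nz
  have h2 : ((g x).den : ℚ) ≠ 0 := by exact_mod_cast (g x).den_nz
  simp only [mk]; push_cast; field_simp; ring

lemma mul {f g : α → ℚ} (hf : Primrec f) (hg : Primrec g) : Primrec fun x => f x * g x := by
  have := primrec_mk
    (Primrec.nat_add.comp (Primrec.nat_mul.comp (primrec_np.comp hf) (primrec_np.comp hg))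
      (Primrec.nat_mul.comp (primrec_nn.comp hf) (primrec_nn.comp hg)))
    (Primrec.nat_add.comp (Primrec.nat_mul.comp (primrec_np.comp hf) (primrec_nn.comp hg))
      (Primrec.nat_mul.comp (primrec_nn.comp hf) (primrec_np.comp hg)))
    (Primrec.nat_mul.comp (primrec_den.comp hf) (primrec_den.comp hg))
  refine this.of_eq fun x => ?_
  conv_rhs => rw [← mk_self (f x), ← mk_self (g x)]
  have h1 : ((f x).den : ℚ) ≠ 0 := by exact_mod_cast (f x).den_nz
  have h2 : ((g x).den : ℚ) ≠ 0 := by exact_mod_cast (g x).den_nz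
  simp only [mk]; push_cast; field_simp; ring

lemma neg {f : α → ℚ} (hf : Primrec f) : Primrec fun x => -f x :=
  (mul (Primrec.const (-1)) hf).of_eq fun x => by ring

lemma sub {f g : α → ℚ} (hf : Primrec f) (hg : Primrec g) : Primrec fun x => f x - g x :=
  (add hf (neg hg)).of_eq fun x => by ring

lemma inv {f : α → ℚ} (hf : Primrec f) : Primrec fun x => (f x)⁻¹ := by
  have hc : PrimrecPred fun x => nn (f x) = 0 :=
    Primrec.eq.comp (primrec_nn.comp hf) (Primrec.const 0)
  have := primrec_mk
    (Primrec.ite hc (primrec_den.comp hf) (Primrec.const 0))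
    (Primrec.ite hc (Primrec.const 0) (primrec_den.comp hf))
    (Primrec.nat_add.comp (primrec_np.comp hf) (primrec_nn.comp hf))
  refine this.of_eq fun x => ?_
  conv_rhs => rw [← mk_self (f x)]
  by_cases h : nn (f x) = 0
  · simp [mk, h]
  · have h0 : np (f x) = 0 := by unfold np nn at *; omega
    simp only [mk, h, h0, if_false]
    push_cast
    rw [inv_div, zero_add, zero_sub, zero_sub, div_neg, neg_div]

lemma div {f g : α → ℚ} (hf : Primrec f) (hg : Primrec g) : Primrec fun x => f x / g x :=
  (mul hf (inv hg)).of_eq fun x => (div_eq_mul_inv _ _).symm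

lemma pow {f : α → ℚ} {g : α → ℕ} (hf : Primrec f) (hg : Primrec g) :
    Primrec fun x => f x ^ g x := by
  have := Primrec.nat_iterate hg (Primrec.const (1 : ℚ))
    (h := fun x y => y * f x) (mul Primrec.snd (hf.comp Primrec.fst))
  refine this.of_eq fun x => ?_
  induction g x with
  | zero => simp
  | succ n ih => rw [Function.iterate_succ_apply', ih, pow_succ]

lemma nonpos {f : α → ℚ} (hf : Primrec f) : PrimrecPred fun x => f x ≤ 0 :=
  (Primrec.eq.comp (primrec_np.comp hf) (Primrec.const 0)).of_eq fun x => by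
    rw [← Rat.num_nonpos, np]; omega

lemma le {f g : α → ℚ} (hf : Primrec f) (hg : Primrec g) : PrimrecPred fun x => f x ≤ g x :=
  (nonpos (sub hf hg)).of_eq fun x => sub_nonpos

lemma sum_range {f : α → ℕ → ℚ} {g : α → ℕ} (hf : Primrec₂ f) (hg : Primrec g) :
    Primrec fun x => ∑ i ∈ Finset.range (g x), f x i := by
  have := Primrec.nat_rec' hg (Primrec.const (0 : ℚ))
    (h := fun x p => p.2 + f x p.1)
    (add (Primrec.snd.comp Primrec.snd) (hf.comp Primrec.fst (Primrec.fst.comp Primrec.snd)))
  refine this.of_eq fun x => ?_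
  induction g x with
  | zero => simp
  | succ n ih => rw [Finset.sum_range_succ, ← ih]

lemma nat_sum_range {f : α → ℕ → ℕ} {g : α → ℕ} (hf : Primrec₂ f) (hg : Primrec g) :
    Primrec fun x => ∑ i ∈ Finset.range (g x), f x i := by
  have := Primrec.nat_rec' hg (Primrec.const (0 : ℕ))
    (h := fun x p => p.2 + f x p.1)
    (Primrec.nat_add.comp (Primrec.snd.comp Primrec.snd)
      (hf.comp Primrec.fst (Primrec.fst.comp Primrec.snd)))
  refine this.of_eq fun x => ?_
  induction g x with
  | zero => simp
  | succ n ih => rw [Finset.sum_range_succ, ← ih]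

lemma nat_pow {f g : α → ℕ} (hf : Primrec f) (hg : Primrec g) : Primrec fun x => f x ^ g x :=
  (Primrec₂.unpaired'.1 Nat.Primrec.pow).comp hf hg

lemma nat_factorial : Primrec Nat.factorial := by
  have : Primrec (fun m : ℕ => Nat.rec (motive := fun _ => ℕ) 1
      (fun n ih => (n + 1) * ih) m) :=
    Primrec.nat_rec₁ 1 (Primrec.nat_mul.comp (Primrec.succ.comp Primrec.fst) Primrec.snd)
  refine this.of_eq fun m => ?_
  induction m with
  | zero => rfl
  | succ m ih => rw [Nat.factorial_succ, ← ih]

lemma nat_choose : Primrec₂ Nat.choose := by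
  have : Primrec fun p : ℕ × ℕ => if p.2 ≤ p.1 then
      p.1.factorial / (p.2.factorial * (p.1 - p.2).factorial) else 0 :=
    Primrec.ite (Primrec.nat_le.comp Primrec.snd Primrec.fst)
      (Primrec.nat_div.comp (nat_factorial.comp Primrec.fst)
        (Primrec.nat_mul.comp (nat_factorial.comp Primrec.snd)
          (nat_factorial.comp (Primrec.nat_sub.comp Primrec.fst Primrec.snd)))) (Primrec.const 0)
  refine Primrec₂.mk (this.of_eq fun p => ?_)
  split_ifs with h
  · exact (Nat.choose_eq_factorial_div_factorial h).symm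
  · exact (Nat.choose_eq_zero_of_lt (not_le.1 h)).symm

/-- a natural upper bound for `|q|` -/
def absb (q : ℚ) : ℕ := np q + nn q

lemma primrec_absb : Primrec absb := Primrec.nat_add.comp primrec_np primrec_nn

lemma abs_le_absb (q : ℚ) : |(q : ℝ)| ≤ absb q := by
  have h1 : (absb q : ℤ) = |q.num| := by
    unfold absb np nn; push_cast
    rcases abs_cases q.num with h | h <;> omega
  have h2 : (absb q : ℝ) = |(q.num : ℝ)| := by exact_mod_cast h1
  have h3 : (q : ℝ) = q.num / q.den := by exact_mod_cast (Rat.num_div_den q).symm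
  have h4 : (1 : ℝ) ≤ q.den := by exact_mod_cast q.den_pos
  rw [h2, h3, abs_div, abs_of_pos (by linarith : (0 : ℝ) < q.den)]
  exact div_le_self (abs_nonneg _) h4

end ops

end Crest.Agent.RatPrim
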